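import Crest.Agent.N250.Ec.Pull
import Crest.Agent.N250.Wt.AA
import Crest.Agent.N250.B1.Defs
import Crest.Agent.N250.Ra.Fou

/-!
# Row 250, end chart (helper40): Fourier series of the trace on a loop
-/

set_option autoImplicit false
set_option linter.unusedSectionVars false
open Set Filter Topology Function MeasureTheory
open scoped ContDiff NNReal ENNReal

noncomputable section

namespace Crest.Agent.N250.Ec

open Crest.Agent.N222 hiding E ee
open WS WS.Lim B1 Ra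

/-- the Fourier series as an element of the Wiener algebra -/
def four (k : ℕ) (g : ℝ → ℂ) : Wi (omP k) := by
  classical
  exact if h : Summable fun m => ‖(omP k).w m * fc g m‖ then Wi.mk _ (fc g) h else 0

theorem omP_w (k : ℕ) (m : ℤ) : (omP k).w m = (((1 + |(m : ℝ)|) ^ k : ℝ) : ℂ) := rfl

theorem norm_omP_mul (k : ℕ) (m : ℤ) (c : ℂ) : ‖(omP k).w m * c‖ = (1 + |(m : ℝ)|) ^ k * ‖c‖ := by
  rw [norm_mul, omP_w, Complex.norm_real, Real.norm_of_nonneg (by positivity)]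

theorem co_four' {k : ℕ} {g : ℝ → ℂ} (h : Summable fun m => ‖(omP k).w m * fc g m‖) (m : ℤ) :
    Wi.co (four k g) m = fc g m := by
  rw [four, dif_pos h, Wi.co_mk]

theorem syn_eq {k : ℕ} (u : Wi (omP k)) (θ : ℝ) : Wi.syn u θ = ∑' m, Wi.co u m * Wi.ex m θ := by
  simp only [Wi.syn, smul_eq_mul, mul_comm]

theorem fc_syn {w : WiW ℂ} (u : Wi w) (m : ℤ) : fc (Wi.syn u) m = Wi.co u m := by
  have h := Wi.integral_syn u m
  simp only [smul_eq_mul] at h
  have h2 : ((2 * Real.pi : ℝ) : ℂ) ≠ 0 := by exact_mod_cast Real.two_pi_pos.ne'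
  rw [fc, h]
  push_cast at h2 ⊢
  field_simp

theorem four_syn {k : ℕ} (u : Wi (omP k)) : four k (Wi.syn u) = u :=
  Wi.ext fun m => by
    rw [co_four' (by simpa only [fc_syn] using Wi.summable_w u), fc_syn]

theorem fc_conj (g : ℝ → ℂ) (m : ℤ) :
    fc (fun θ => (starRingEnd ℂ) (g θ)) m = (starRingEnd ℂ) (fc g (-m)) := by
  have e : ∀ θ, Wi.ex (-m) θ * (starRingEnd ℂ) (g θ) = (starRingEnd ℂ) (Wi.ex (- -m) θ * g θ) := fun θ => by
    rw [map_mul, Wi.ex, Wi.ex, ← Complex.exp_conj]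
    simp
  simp only [fc, e, map_mul, map_inv₀, Complex.conj_ofReal]
  congr 1
  simp only [← map_mul]
  rw [intervalIntegral.integral_of_le Real.two_pi_pos.le, intervalIntegral.integral_of_le Real.two_pi_pos.le,
    integral_conj]

/-- smooth periodic functions -/
structure Pd (g : ℝ → ℂ) : Prop where
  cd : ContDiff ℝ ∞ g
  per : Periodic g (2 * Real.pi)

theorem per_deriv {G : Type} [NormedAddCommGroup G] [NormedSpace ℝ G] {g : ℝ → G} {T : ℝ}
    (h : Periodic g T) : Periodic (deriv g) T := fun θ => by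
  rw [← deriv_comp_add_const]
  exact congrArg (deriv · θ) (funext h)

theorem per_iter {G : Type} [NormedAddCommGroup G] [NormedSpace ℝ G] {g : ℝ → G} {T : ℝ}
    (h : Periodic g T) : ∀ j, Periodic (iteratedDeriv j g) T
  | 0 => by simpa using h
  | j + 1 => by rw [iteratedDeriv_succ]; exact per_deriv (per_iter h j)

theorem per_bdd {G : Type} [NormedAddCommGroup G] {g : ℝ → G} (h : Periodic g (2 * Real.pi))
    (hc : Continuous g) : ∃ A, ∀ θ, ‖g θ‖ ≤ A := by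
  obtain ⟨A, hA⟩ := (h.compact_of_continuous Real.two_pi_pos.ne' hc).isBounded.exists_norm_le
  exact ⟨A, fun θ => hA _ (mem_range_self θ)⟩

/-- the constant of `norm_four_le` -/
def cF (k : ℕ) : ℝ := 2 ^ (k + 3) * ∑' m, maj m

theorem cF_nonneg (k : ℕ) : 0 ≤ cF k :=
  mul_nonneg (by positivity) (tsum_nonneg fun m => (maj_pos m).le)

/-- decay of the coefficients of a `C^n` function -/
theorem fc_iter {g : ℝ → ℂ} {n : ℕ} (hg : ContDiff ℝ n g) (hp : Periodic g (2 * Real.pi)) (m : ℤ) :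
    ∀ j ≤ n, fc (iteratedDeriv j g) m = (m * Complex.I) ^ j * fc g m
  | 0, _ => by simp
  | j + 1, hj => by
    have h1 : ∀ θ, HasDerivAt (iteratedDeriv j g) (iteratedDeriv (j + 1) g θ) θ := fun θ => by
      rw [iteratedDeriv_succ]
      exact (hg.differentiable_iteratedDeriv j (by exact_mod_cast hj) θ).hasDerivAt
    rw [fc_deriv (by simpa using per_iter hp j 0) h1
      (hg.continuous_iteratedDeriv (j + 1) (by exact_mod_cast hj)), fc_iter hg hp m j (by omega)]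
    ring

theorem w_fc_le {g : ℝ → ℂ} {k : ℕ} {M : ℝ} (hg : ContDiff ℝ (k + 2 : ℕ) g)
    (hp : Periodic g (2 * Real.pi)) (h : ∀ j ≤ k + 2, ∀ θ, ‖iteratedDeriv j g θ‖ ≤ M) (m : ℤ) :
    ‖(omP k).w m * fc g m‖ ≤ 2 ^ (k + 3) * M * maj m := by
  have a0 : ‖fc g m‖ ≤ M := fc_norm_le (by simpa using h 0 (by omega)) m
  have a2 := fc_norm_le (h (k + 2) le_rfl) m
  rw [fc_iter hg hp m _ le_rfl, norm_mul, norm_pow, norm_mul, Complex.norm_I, mul_one,
    Complex.norm_intCast] at a2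
  have b1 : (1 + |(m : ℝ)|) ^ (k + 2) ≤ 2 ^ (k + 2) * (1 + |(m : ℝ)| ^ (k + 2)) := by
    have := add_pow_le zero_le_one (abs_nonneg (m : ℝ)) (k + 2)
    rw [one_pow] at this
    exact this.trans (by gcongr; exacts [one_le_two, by omega])
  have b2 : 1 + (m : ℝ) ^ 2 ≤ (1 + |(m : ℝ)|) ^ 2 := by nlinarith [abs_nonneg (m : ℝ), sq_abs (m : ℝ)]
  rw [norm_omP_mul, maj, mul_one_div, le_div_iff₀ (by positivity)]
  calc _ ≤ (1 + |(m : ℝ)|) ^ k * ‖fc g m‖ * (1 + |(m : ℝ)|) ^ 2 := by gcongr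
    _ = (1 + |(m : ℝ)|) ^ (k + 2) * ‖fc g m‖ := by ring
    _ ≤ 2 ^ (k + 2) * (1 + |(m : ℝ)| ^ (k + 2)) * ‖fc g m‖ := by gcongr
    _ = 2 ^ (k + 2) * (‖fc g m‖ + |(m : ℝ)| ^ (k + 2) * ‖fc g m‖) := by ring
    _ ≤ 2 ^ (k + 2) * (M + M) := by gcongr
    _ = _ := by ring

theorem summable_w {g : ℝ → ℂ} {k : ℕ} (hg : ContDiff ℝ (k + 2 : ℕ) g)
    (hp : Periodic g (2 * Real.pi)) : Summable fun m => ‖(omP k).w m * fc g m‖ := by
  have h1 : ∀ j : Fin (k + 3), ∃ A, ∀ θ, ‖iteratedDeriv j g θ‖ ≤ A := fun j =>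
    per_bdd (per_iter hp j) (hg.continuous_iteratedDeriv j (by exact_mod_cast Nat.lt_succ_iff.1 j.2))
  choose A hA using h1
  refine Summable.of_nonneg_of_le (fun _ => norm_nonneg _) (w_fc_le (M := ∑ j, |A j|) hg hp
    fun j hj θ => (hA ⟨j, by omega⟩ θ).trans ((le_abs_self _).trans ?_)) (summable_maj.mul_left _)
  exact Finset.single_le_sum (f := fun j => |A j|) (fun _ _ => abs_nonneg _) (Finset.mem_univ _)

theorem norm_four_le' {g : ℝ → ℂ} {k : ℕ} {M : ℝ} (hg : ContDiff ℝ (k + 2 : ℕ) g)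
    (hp : Periodic g (2 * Real.pi)) (h : ∀ j ≤ k + 2, ∀ θ, ‖iteratedDeriv j g θ‖ ≤ M) :
    ‖four k g‖ ≤ cF k * M := by
  refine Wi.norm_le_of (b := fun m => 2 ^ (k + 3) * M * maj m) ?_ fun m => ?_
  · rw [cF, mul_right_comm]
    exact summable_maj.hasSum.mul_left _
  · rw [co_four' (summable_w hg hp)]
    exact w_fc_le hg hp h m

theorem syn_four' {g : ℝ → ℂ} {k : ℕ} (hc : Continuous g) (hp : Periodic g (2 * Real.pi))
    (h : Summable fun m => ‖(omP k).w m * fc g m‖) (θ : ℝ) : Wi.syn (four k g) θ = g θ := by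
  have h1 : Summable (fc g) := by
    have := (Wi.summable_co (four k g)).of_norm
    simpa only [funext (co_four' h)] using this
  rw [syn_eq]
  simp only [co_four' h]
  exact (fc_hasSum hp hc h1 θ).tsum_eq

namespace Pd

variable {f g : ℝ → ℂ} (k : ℕ)

theorem sw (h : Pd g) : Summable fun m => ‖(omP k).w m * fc g m‖ :=
  summable_w (contDiff_infty.1 h.cd _) h.per

theorem co_four (h : Pd g) (m : ℤ) : Wi.co (four k g) m = fc g m := co_four' (h.sw k) m

theorem syn_four (h : Pd g) (θ : ℝ) : Wi.syn (four k g) θ = g θ :=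
  syn_four' h.cd.continuous h.per (h.sw k) θ

theorem norm_four_le (h : Pd g) {M : ℝ} (hM : ∀ j ≤ k + 2, ∀ θ, ‖iteratedDeriv j g θ‖ ≤ M) :
    ‖four k g‖ ≤ cF k * M := norm_four_le' (contDiff_infty.1 h.cd _) h.per hM

theorem const (c : ℂ) : Pd fun _ => c := ⟨contDiff_const, fun _ => rfl⟩

theorem add (hf : Pd f) (hg : Pd g) : Pd fun θ => f θ + g θ := ⟨hf.cd.add hg.cd, hf.per.add hg.per⟩

theorem sub (hf : Pd f) (hg : Pd g) : Pd fun θ => f θ - g θ := ⟨hf.cd.sub hg.cd, hf.per.sub hg.per⟩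

theorem mul (hf : Pd f) (hg : Pd g) : Pd fun θ => f θ * g θ := ⟨hf.cd.mul hg.cd, hf.per.mul hg.per⟩

theorem inv (hf : Pd f) (h0 : ∀ θ, f θ ≠ 0) : Pd fun θ => (f θ)⁻¹ :=
  ⟨hf.cd.inv h0, fun θ => by simp only [hf.per θ]⟩

theorem div (hf : Pd f) (hg : Pd g) (h0 : ∀ θ, g θ ≠ 0) : Pd fun θ => f θ / g θ := by
  simpa only [div_eq_mul_inv] using hf.mul (hg.inv h0)

theorem pow (hf : Pd f) (n : ℕ) : Pd fun θ => f θ ^ n := ⟨hf.cd.pow n, fun θ => by simp only [hf.per θ]⟩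

theorem conj (hf : Pd f) : Pd fun θ => (starRingEnd ℂ) (f θ) :=
  ⟨Complex.conjCLE.contDiff.comp hf.cd, fun θ => by simp only [hf.per θ]⟩

theorem ofReal {r : ℝ → ℝ} (hr : ContDiff ℝ ∞ r) (hp : Periodic r (2 * Real.pi)) :
    Pd fun θ => (r θ : ℂ) := ⟨Complex.ofRealCLM.contDiff.comp hr, fun θ => by simp only [hp θ]⟩

theorem four_eq (hg : Pd g) {u : Wi (omP k)} (h : ∀ θ, Wi.syn u θ = g θ) : four k g = u :=
  Wi.ext_syn fun θ => by rw [hg.syn_four, h]

theorem four_add (hf : Pd f) (hg : Pd g) : four k (fun θ => f θ + g θ) = four k f + four k g :=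
  (hf.add hg).four_eq k fun θ => by rw [Wi.syn_add, hf.syn_four, hg.syn_four]

theorem four_mul (hf : Pd f) (hg : Pd g) : four k (fun θ => f θ * g θ) = four k f * four k g :=
  (hf.mul hg).four_eq k fun θ => by rw [Wi.syn_mul, hf.syn_four, hg.syn_four]

theorem four_sub (hf : Pd f) (hg : Pd g) : four k (fun θ => f θ - g θ) = four k f - four k g :=
  (hf.sub hg).four_eq k fun θ => by
    rw [← Wi.ev_apply, map_sub, Wi.ev_apply, Wi.ev_apply, hf.syn_four, hg.syn_four]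

theorem four_smul (hf : Pd f) (c : ℂ) : four k (fun θ => c * f θ) = c • four k f :=
  ((const c).mul hf).four_eq k fun θ => by rw [Wi.syn_smul, hf.syn_four, smul_eq_mul]

theorem four_const (c : ℂ) : four k (fun _ => c) = Wi.cst _ c :=
  (const c).four_eq k fun θ => Wi.syn_cst c θ

theorem co_four_conj (hf : Pd f) (m : ℤ) : Wi.co (four k fun θ => (starRingEnd ℂ) (f θ)) m =
    (starRingEnd ℂ) (Wi.co (four k f) (-m)) := by
  rw [hf.conj.co_four, hf.co_four, fc_conj]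

end Pd

/-! ### loops -/

section Loop

variable {d : ℕ} {ι : Type} [Fintype ι] [DecidableEq ι] {X : Type} [TopologicalSpace X]

/-- smooth loops -/
structure Lo (M : Imm d ι X) (c : ℝ → X) : Prop where
  cont : Continuous c
  sm : ContDiff ℝ ∞ (M.x ∘ c)
  per : Periodic c (2 * Real.pi)

variable {M : Imm d ι X} {c : ℝ → X}

theorem Pm.lo {ψ : ℝ × ℝ → X} {Ω : Set (ℝ × ℝ)} (h : Pm M Ω ψ) {R : ℝ} (hR : ∀ θ, (R, θ) ∈ Ω)
    (hp : ∀ θ, ψ (R, θ + 2 * Real.pi) = ψ (R, θ)) : Lo M fun θ => ψ (R, θ) := by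
  have h1 := h.comp (g := fun θ : ℝ => (R, θ)) isOpen_univ (by fun_prop) fun θ _ => hR θ
  exact ⟨continuousOn_univ.1 h1.cont, contDiffOn_univ.1 h1.sm, hp⟩

namespace Lo

variable (h : Lo M c)
include h

theorem pm : Pm M univ c := ⟨isOpen_univ, h.cont.continuousOn, h.sm.contDiffOn⟩

theorem pd {u : X → ℂ} (hu : M.Sm u) : Pd (u ∘ c) := ⟨contDiffOn_univ.1 (h.pm.cd hu), h.per.comp u⟩

theorem jet_le {F : Type} [NormedAddCommGroup F] [NormedSpace ℝ F] (k : ℕ) : ∃ C, 1 ≤ C ∧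
    ∀ (u : X → F) (B : ℝ), M.Sm u → ∀ θ, (∀ l : List ι, l.length ≤ k → ‖DW M l u (c θ)‖ ≤ B) →
      ∀ j ≤ k, ‖iteratedDeriv j (u ∘ c) θ‖ ≤ C * B := by
  obtain ⟨C, h1, h2⟩ := h.pm.jet_bdd (F := F) subset_rfl k fun i => by
    obtain ⟨A, hA⟩ := per_bdd (per_iter (h.per.comp M.x) i)
      (h.sm.continuous_iteratedDeriv i (by exact_mod_cast le_top))
    exact ⟨A, fun θ _ => by rw [norm_iteratedFDeriv_eq_norm_iteratedDeriv]; exact hA θ⟩
  refine ⟨C, h1, fun u B hu θ hB j hj => ?_⟩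
  rw [← norm_iteratedFDeriv_eq_norm_iteratedDeriv]
  exact h2 u B hu θ (mem_univ _) hB j hj

theorem four_le (k : ℕ) : ∃ C, 0 ≤ C ∧ ∀ (u : X → ℂ) (B : ℝ), M.Sm u →
    (∀ l : List ι, l.length ≤ k + 2 → ∀ θ, ‖DW M l u (c θ)‖ ≤ B) → ‖four k (u ∘ c)‖ ≤ C * B := by
  obtain ⟨C, h1, h2⟩ := h.jet_le (F := ℂ) (k + 2)
  refine ⟨cF k * C, mul_nonneg (cF_nonneg k) (by linarith), fun u B hu hB => ?_⟩
  rw [mul_assoc]
  exact (h.pd hu).norm_four_le k fun j hj θ => h2 u B hu θ (fun l hl => hB l hl θ) j hj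

end Lo

end Loop

section Geo

variable {X : Type} [TopologicalSpace X] [MeasurableSpace X] (G : Geo X) {c : ℝ → X}

/-- the trace of smooth functions on a loop -/
def trS (h : Lo G.M c) (k : ℕ) : G.SmC →ₐ[ℂ] Wi (omP k) where
  toFun f := four k (f.1 ∘ c)
  map_one' := Pd.four_const k 1
  map_mul' f g := (h.pd f.2).four_mul k (h.pd g.2)
  map_zero' := (Pd.four_const k 0).trans (map_zero _)
  map_add' f g := (h.pd f.2).four_add k (h.pd g.2)
  commutes' a := (Pd.four_const k a).trans ((Wi.cst (omP k)).commutes' a)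

variable {G} (h : Lo G.M c) (k : ℕ)

theorem trS_eq (f : G.SmC) : trS G h k f = four k (f.1 ∘ c) := rfl

theorem syn_trS (f : G.SmC) (θ : ℝ) : Wi.syn (trS G h k f) θ = f.1 (c θ) := (h.pd f.2).syn_four k θ

theorem co_trS (f : G.SmC) (m : ℤ) : Wi.co (trS G h k f) m = fc (fun θ => f.1 (c θ)) m :=
  (h.pd f.2).co_four k m

theorem trS_eq_four (f : G.SmC) {g : ℝ → ℂ} (e : ∀ θ, f.1 (c θ) = g θ) : trS G h k f = four k g :=
  congrArg (four k) (funext e)

theorem trS_congr {f g : G.SmC} (e : ∀ θ, f.1 (c θ) = g.1 (c θ)) : trS G h k f = trS G h k g :=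
  trS_eq_four h k f e

theorem trS_eq_of_syn (f : G.SmC) {u : Wi (omP k)} (e : ∀ θ, f.1 (c θ) = Wi.syn u θ) :
    trS G h k f = u := (trS_eq_four h k f e).trans (four_syn u)

theorem trS_le : ∃ C, 0 ≤ C ∧ ∀ (f : G.SmC) (B : ℝ),
    (∀ l : List (Fin 3), l.length ≤ k + 2 → ∀ θ, ‖(G.SC.Dw l f).1 (c θ)‖ ≤ B) → ‖trS G h k f‖ ≤ C * B := by
  obtain ⟨C, h1, h2⟩ := h.four_le k
  exact ⟨C, h1, fun f B hB => h2 f.1 B f.2 fun l hl θ => by rw [← G.SC_Dw_DW]; exact hB l hl θ⟩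

variable [BorelSpace X] (σ : Scale G)

theorem trS_val_le : ∃ C, ∀ f : σ.AA, ‖trS G h k (σ.val f)‖ ≤ C * ‖f‖ := by
  obtain ⟨C, h1, h2⟩ := trS_le h k
  refine ⟨C * ((σ.ε (k + 2 + 5))⁻¹ : ℝ≥0), fun f => ?_⟩
  rw [mul_assoc]
  refine h2 _ _ fun l hl θ => (Scale.norm_Dw_le l f _).trans ?_
  gcongr
  · exact σ.adm.pos _
  · exact σ.adm.antitone (by omega)

/-- the trace as a continuous algebra map -/
def trA : σ.AA →A[ℂ] Wi (omP k) where
  __ := (trS G h k).comp σ.val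
  cont := by
    obtain ⟨C, hC⟩ := trS_val_le h k σ
    exact AddMonoidHomClass.continuous_of_bound ((trS G h k).comp σ.val) C hC

theorem trA_apply (f : σ.AA) : trA h k σ f = trS G h k (σ.val f) := rfl

theorem syn_trA (f : σ.AA) (θ : ℝ) : Wi.syn (trA h k σ f) θ = (σ.val f).1 (c θ) := syn_trS h k _ θ

/-- the trace as a continuous linear map -/
def trL : σ.AA →L[ℂ] Wi (omP k) := (trA h k σ).toContinuousLinearMap

theorem trL_apply (f : σ.AA) : trL h k σ f = trS G h k (σ.val f) := rfl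

end Geo

end Crest.Agent.N250.Ec

end
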