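import Crest.Agent.N250.Ec.Dat
import Crest.Agent.N250.Wr.Geo
import Crest.Agent.N250.Po.Area

/-!
# Row 250, end chart (helper40): the polar parametrisation of the tubes of a shrinker with ends
-/

set_option autoImplicit false
set_option linter.unusedSectionVars false
open Set Filter Topology Function
open scoped ContDiff InnerProductSpace
open Crest.GeometryTopology.MCF

noncomputable section

namespace Crest.Agent.N250.Ec

open Po Wr

variable {S : Mv} (e : Ends S) (j : Fin e.p)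

theorem r_pos {q : ℝ × ℝ} (hq : e.R < q.1) : 0 < e.r j q := one_pos.trans (e.near j q hq).1

theorem per_r : Per (e.r j) := e.per j

theorem cyl_zero (s r θ : ℝ) : cylP s r θ 0 = s := rfl

theorem cyl_cone {q : ℝ × ℝ} (hq : e.R < q.1) : cylP q.1 (e.r j q) q.2 ∈ cone0 e.ε := by
  have h := (Wr.mem_cone (e := e) j (e.Q j (cylP q.1 (e.r j q) q.2))).2 (by
    rw [wv_pol, xi_Q, abs_of_pos (r_pos e j hq), cyl_zero]
    have := (e.near j q hq).2
    have := e.R_ge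
    have := mul_lt_mul_of_pos_left hq e.ε_pos
    linarith)
  rwa [LinearIsometryEquiv.symm_apply_apply] at h

theorem pX_mem {q : ℝ × ℝ} (hq : e.R < q.1) : pX (e.Q j) (e.r j) q ∈ S.sl 0 :=
  (e.tube j _ (cyl_cone e j hq) hq).2 ⟨q.2, rfl⟩

/-- the polar parametrisation of the tube `j` -/
def psi (q : ℝ × ℝ) : S.sl 0 := by
  classical
  exact if h : e.R < q.1 then ⟨pX (e.Q j) (e.r j) q, pX_mem e j h⟩
    else ⟨pX (e.Q j) (e.r j) (e.R + 1, q.2), pX_mem e j (lt_add_one _)⟩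

variable {e j} {q : ℝ × ℝ} {a : ℝ}

theorem psi_val (hq : e.R < q.1) : (psi e j q : E) = pX (e.Q j) (e.r j) q := by
  rw [psi, dif_pos hq]

theorem per_pX {Q : E ≃ₗᵢ[ℝ] E} {r : ℝ × ℝ → ℝ} (hr : Per r) : Per (pX Q r) := fun s θ => by
  simp only [pX, cylP, hr s θ, Real.cos_add_two_pi, Real.sin_add_two_pi]

variable (e j) in
theorem per_psi : Per (psi e j) := fun s θ => by
  refine Subtype.ext ?_
  by_cases h : e.R < s
  · rw [psi_val (q := (s, θ)) h, psi_val (q := (s, θ + 2 * Real.pi)) h, per_pX (per_r e j)]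
  · rw [psi, psi, dif_neg h, dif_neg h]
    exact per_pX (per_r e j) _ _

theorem isOpen_half (a : ℝ) : IsOpen {q : ℝ × ℝ | a < q.1} := isOpen_lt continuous_const continuous_fst

theorem half_eq (a : ℝ) : {q : ℝ × ℝ | a < q.1} = Ioi a ×ˢ univ := by ext; simp

theorem cd_r (hq : e.R < q.1) : ContDiffAt ℝ ∞ (e.r j) q :=
  (e.sm j).contDiffAt ((isOpen_half _).mem_nhds hq)

theorem psi_ev (hq : e.R < q.1) : (fun y => (psi e j y : E)) =ᶠ[𝓝 q] pX (e.Q j) (e.r j) := by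
  filter_upwards [(isOpen_half _).mem_nhds hq] with y hy using psi_val hy

theorem cd_psi (hq : e.R < q.1) : ContDiffAt ℝ ∞ (fun y => (psi e j y : E)) q :=
  (contDiffAt_pX (cd_r hq)).congr_of_eventuallyEq (psi_ev hq)

theorem ca_psi (hq : e.R < q.1) : ContinuousAt (psi e j) q :=
  Topology.IsInducing.subtypeVal.continuousAt_iff.2 (cd_psi hq).continuousAt

theorem xi_psi (hq : e.R < q.1) : xi e j (psi e j q) = q.1 := by rw [psi_val hq, pX, xi_Q, cyl_zero]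

theorem norm_wv_psi (hq : e.R < q.1) : ‖wv e j (psi e j q)‖ = e.r j q := by
  rw [psi_val hq, pX, wv_pol, abs_of_pos (r_pos e j hq)]

theorem r2_psi (hq : e.R < q.1) : r2 e j (psi e j q) = e.r j q ^ 2 := by rw [r2_eq_wv, norm_wv_psi hq]

theorem wv_psi (hq : e.R < q.1) : wv e j (psi e j q) = fr (e.Q j) q.2 0 (e.r j q) 0 := by
  rw [wv, xi_psi hq, psi_val hq, pX_eq, fr_eq, fr_eq, ax]
  module

theorem psi_tube (hq : e.R < q.1) (ha : a < q.1) : ((psi e j q : E), (0 : ℝ)) ∈ tube e j a := by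
  refine ⟨by rwa [xi_psi hq], ?_⟩
  have := e.near j q hq
  rw [r2_psi hq]
  nlinarith

theorem norm_zc_psi (hq : e.R < q.1) : ‖zc (e.Q j) (psi e j q)‖ = e.r j q := by
  rw [psi_val hq, pX, norm_zc_cyl, abs_of_pos (r_pos e j hq)]

theorem zc_psi_ne (hq : e.R < q.1) : zc (e.Q j) (psi e j q) ≠ 0 :=
  norm_pos_iff.1 (by rw [norm_zc_psi hq]; exact r_pos e j hq)

theorem crd_fst (x : E) : (crd (e.Q j) x).1 = xi e j x := (xi_eq j x).symm

theorem crd_psi_fst (hq : e.R < q.1) : (crd (e.Q j) (psi e j q)).1 = q.1 := by rw [crd_fst, xi_psi hq]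

/-- periodic functions see `crd ∘ psi` as the identity -/
theorem crd_psi {G : Type} {g : ℝ × ℝ → G} (hg : Per g) (hq : e.R < q.1) :
    g (crd (e.Q j) (psi e j q)) = g q := by
  rw [psi_val hq, hg.crd_pX (r_pos e j hq)]

/-- points of the tube are parametrised -/
theorem psi_crd (hS : S.Static) (p : S.sl 0) (hp : ((p : E), (0 : ℝ)) ∈ tube e j e.R) :
    psi e j (crd (e.Q j) p) = p := by
  obtain ⟨θ, h⟩ := exists_pol hS (p := ((p : E), 0)) p.2 (tube_cone hp) hp.1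
  have h1 : (p : E) = psi e j (xi e j p, θ) := by rw [psi_val (q := (xi e j p, θ)) hp.1]; exact h
  conv_lhs => rw [h1, crd_psi (per_psi e j) (q := (xi e j p, θ)) hp.1]
  exact Subtype.ext h1.symm

theorem exists_psi (hS : S.Static) (ha : e.R ≤ a) (p : S.sl 0)
    (hp : ((p : E), (0 : ℝ)) ∈ tube e j a) :
    ∃ q : ℝ × ℝ, a < q.1 ∧ q.2 ∈ Ioc (-Real.pi) Real.pi ∧ psi e j q = p :=
  ⟨crd (e.Q j) p, by rw [crd_fst]; exact hp.1, crd_mem _, psi_crd hS p (tube_mono ha hp)⟩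

theorem zc_ne (hS : S.Static) (p : S.sl 0) (hp : ((p : E), (0 : ℝ)) ∈ tube e j e.R) :
    zc (e.Q j) p ≠ 0 := by
  obtain ⟨q, hq, -, rfl⟩ := exists_psi hS le_rfl p hp
  exact zc_psi_ne hq

theorem injOn_psi {I : Set ℝ} (hI : I ⊆ Ioi e.R) : InjOn (psi e j) (strip I) := fun x hx y hy h =>
  injOn_pX (Q := e.Q j) (fun q hq => r_pos e j (hI hq.1)) hx hy (by
    rw [← psi_val (hI hx.1), ← psi_val (hI hy.1), h])

theorem norm_psi_sq (hq : e.R < q.1) : ‖(psi e j q : E)‖ ^ 2 = q.1 ^ 2 + e.r j q ^ 2 := by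
  rw [psi_val hq, norm_pX_sq]

theorem chi_psi (hq : e.R < q.1) (a b : ℝ) : chi e j a b (psi e j q) = st a b q.1 := by
  rw [chi_tube (p := ((psi e j q : E), 0)) (psi_tube hq hq), xi_psi hq]

theorem psi_off (hS : S.Static) {i : Fin e.p} (hi : i ≠ j) (ha : e.R < a) (hq : e.R < q.1) :
    ((psi e j q : E), (0 : ℝ)) ∈ Off e i a := off_of_tube hS ha hi (psi e j q).2 (psi_tube hq hq)

theorem chi_psi_ne (hS : S.Static) {i : Fin e.p} (hi : i ≠ j) {b : ℝ} (ha : e.R < a) (hab : a < b)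
    (hq : e.R < q.1) : chi e i a b (psi e j q) = 0 :=
  chi_zero (p := ((psi e j q : E), 0)) hab (psi_off hS hi ha hq)

theorem zeta_psi (hS : S.Static) {b : ℝ} (ha : e.R < a) (hab : a < b) (hq : e.R < q.1) :
    zeta e a b (psi e j q) = 1 - st a b q.1 := by
  rw [zeta_tube hS (p := ((psi e j q : E), 0)) ha hab (psi e j q).2 (psi_tube hq hq), chi_psi hq]

theorem rho_psi (hq : e.R < q.1) (ha : a + 1 < q.1) : rho e a ((psi e j q : E), 0) = 1 :=
  rho_tube (psi_tube hq ha)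

/-- the image of a closed strip is compact -/
theorem cpt_psi {b : ℝ} (ha : e.R < a) : IsCompact (psi e j '' (Icc a b ×ˢ univ)) := by
  have h1 : psi e j '' (Icc a b ×ˢ univ) = psi e j '' (Icc a b ×ˢ Icc (-Real.pi) Real.pi) := by
    refine Subset.antisymm ?_ (image_mono (prod_mono subset_rfl (subset_univ _)))
    rintro _ ⟨q, hq, rfl⟩
    have h := ha.trans_le hq.1.1
    exact ⟨crd (e.Q j) (psi e j q), ⟨by rw [crd_psi_fst h]; exact hq.1, Ioc_subset_Icc_self (crd_mem _)⟩,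
      crd_psi (per_psi e j) h⟩
  rw [h1]
  exact (isCompact_Icc.prod isCompact_Icc).image_of_continuousOn fun q hq =>
    (ca_psi (ha.trans_le hq.1.1)).continuousWithinAt

theorem mem_image_psi (hS : S.Static) {I : Set ℝ} (hI : I ⊆ Ioi e.R) (p : S.sl 0) :
    p ∈ psi e j '' (I ×ˢ univ) ↔ xi e j p ∈ I ∧ r2 e j p < 4 := by
  constructor
  · rintro ⟨q, hq, rfl⟩
    exact ⟨by rw [xi_psi (hI hq.1)]; exact hq.1, (psi_tube (hI hq.1) (hI hq.1)).2⟩
  · rintro ⟨h1, h2⟩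
    exact ⟨crd (e.Q j) p, ⟨by rwa [crd_fst], trivial⟩, psi_crd hS p ⟨hI h1, h2⟩⟩

/-- the support of a function that vanishes off the closed strip -/
theorem tsupport_sub (hS : S.Static) {G : Type} [Zero G] {f : S.sl 0 → G} {b : ℝ} (ha : e.R < a)
    (h : ∀ p, f p ≠ 0 → xi e j p ∈ Icc a b ∧ r2 e j p < 4) :
    tsupport f ⊆ psi e j '' (Icc a b ×ˢ univ) :=
  closure_minimal (fun p hp => (mem_image_psi hS (fun _ hx => ha.trans_le hx.1) p).2 (h p hp))
    (cpt_psi ha).isClosed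

section Reg

variable (hR : S.Reg)

variable (e j) in
theorem pm_psi : Pm (hR.imm 0) {q : ℝ × ℝ | e.R < q.1} (psi e j) :=
  ⟨isOpen_half _, fun _ hq => (ca_psi hq).continuousWithinAt, fun _ hq => (cd_psi hq).contDiffWithinAt⟩

variable (j) in
theorem lo_psi (ha : e.R < a) : Lo (hR.imm 0) fun θ => psi e j (a, θ) :=
  (pm_psi e j hR).lo (fun _ => ha) (per_psi e j a)

theorem fd_psi (hq : e.R < q.1) (w : ℝ × ℝ) : fderiv ℝ ((hR.imm 0).x ∘ psi e j) q w =
    fr (e.Q j) q.2 w.1 (fderiv ℝ (e.r j) q w) (e.r j q * w.2) := by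
  rw [← fd_pX ((cd_r hq).differentiableAt (by simp))]
  exact congrArg (fun T : ℝ × ℝ →L[ℝ] E => T w) (psi_ev hq).fderiv_eq

end Reg

theorem per_iter2 {G : Type} [NormedAddCommGroup G] [NormedSpace ℝ G] {g : ℝ × ℝ → G} (h : Per g)
    (i : ℕ) : Per (iteratedFDeriv ℝ i g) := fun s θ => by
  have e : g = fun z => g (z + (0, 2 * Real.pi)) :=
    funext fun z => by rw [← h z.1 z.2]; congr 1; ext <;> simp
  have := iteratedFDeriv_comp_add_right (𝕜 := ℝ) (f := g) i (0, 2 * Real.pi) (s, θ)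
  rw [← e] at this
  rw [this]
  simp

/-- periodic smooth functions have bounded derivatives on closed strips -/
theorem bdd_strip {G : Type} [NormedAddCommGroup G] [NormedSpace ℝ G] {g : ℝ × ℝ → G} {I J : Set ℝ}
    (hI : IsOpen I) (hg : ContDiffOn ℝ ∞ g (I ×ˢ univ)) (hp : Per g) (hJ : IsCompact J) (hs : J ⊆ I)
    (i : ℕ) : ∃ A, ∀ z ∈ J ×ˢ (univ : Set ℝ), ‖iteratedFDeriv ℝ i g z‖ ≤ A := by
  obtain ⟨A, hA⟩ := bdd_of_cpt (hI.prod isOpen_univ) hg
    (hJ.prod (isCompact_Icc (a := -Real.pi) (b := Real.pi))) (prod_mono hs (subset_univ _)) i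
  refine ⟨A, fun z hz => ?_⟩
  rw [show z = (z.1, z.2) from rfl,
    ← (per_iter2 hp i).angle z.1 (Real.Angle.coe_toIocMod z.2 (-Real.pi))]
  refine hA _ ⟨hz.1, Ioc_subset_Icc_self ?_⟩
  simpa [two_mul] using toIocMod_mem_Ioc Real.two_pi_pos (-Real.pi) z.2

/-- jets of pull-backs on closed strips -/
theorem jet_psi (hR : S.Reg) {F : Type} [NormedAddCommGroup F] [NormedSpace ℝ F] {J : Set ℝ}
    (hJ : IsCompact J) (hs : J ⊆ Ioi e.R) (k : ℕ) : ∃ C, 1 ≤ C ∧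
      ∀ (u : S.sl 0 → F) (B : ℝ), (hR.imm 0).Sm u → ∀ z : ℝ × ℝ, z.1 ∈ J →
        (∀ l : List (Fin 3), l.length ≤ k → ‖WS.Lim.DW (hR.imm 0) l u (psi e j z)‖ ≤ B) →
        ∀ i ≤ k, ‖iteratedFDeriv ℝ i (u ∘ psi e j) z‖ ≤ C * B := by
  have h := pm_psi e j hR
  obtain ⟨C, h1, h2⟩ := h.jet_bdd (F := F) (K := J ×ˢ univ) (fun z hz => hs hz.1) k
    (bdd_strip isOpen_Ioi (half_eq e.R ▸ h.sm)
      (fun s θ => congrArg (hR.imm 0).x (per_psi e j s θ)) hJ hs)
  exact ⟨C, h1, fun u B hu z hz => h2 u B hu z ⟨hz, trivial⟩⟩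

end Crest.Agent.N250.Ec

end
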