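import Crest.Agent.N250.Ec.Dat

/-!
# Row 250, end chart (helper40): data that are quadratic in the trace
-/

set_option autoImplicit false
set_option linter.unusedSectionVars false
open Set Filter Topology Function
open scoped ContDiff

noncomputable section

namespace Crest.Agent.N250.Ec

open WS B1

variable {X : Type} [TopologicalSpace X] [MeasurableSpace X] [BorelSpace X] {G : Geo X} {c : ℝ → X}
  (h : Lo G.M c) (k : ℕ) (σ : Scale G) {Ξ : Type*} [NormedAddCommGroup Ξ] [NormedSpace ℂ Ξ]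
  (J : Ξ →L[ℂ] σ.AA) {a b : ℝ → ℂ} {w : Ξ → ℝ → ℂ}

/-- the linear trace `ξ ↦ four (a · w ξ)` -/
def lq (a : ℝ → ℂ) : Ξ →L[ℂ] Wi (omP k) :=
  (ContinuousLinearMap.mul ℂ _ (four k a)) ∘L (trL h k σ ∘L J)

theorem lq_apply (a : ℝ → ℂ) (ξ : Ξ) : lq h k σ J a ξ = four k a * trA h k σ (J ξ) := rfl

include h in
theorem pd_w (hw : ∀ ξ θ, w ξ θ = (σ.val (J ξ)).1 (c θ)) (ξ : Ξ) : Pd (w ξ) :=
  funext (hw ξ) ▸ h.pd (σ.val (J ξ)).2

theorem four_w (hw : ∀ ξ θ, w ξ θ = (σ.val (J ξ)).1 (c θ)) (ξ : Ξ) :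
    four k (w ξ) = trA h k σ (J ξ) := (trS_eq_four h k _ fun θ => (hw ξ θ).symm).symm

theorem lq_eq (ha : Pd a) (hw : ∀ ξ θ, w ξ θ = (σ.val (J ξ)).1 (c θ)) (ξ : Ξ) :
    lq h k σ J a ξ = four k fun θ => a θ * w ξ θ := by
  rw [ha.four_mul k (pd_w h σ J hw ξ), four_w h k σ J hw, lq_apply]

theorem quad_eq (ha : Pd a) (hb : Pd b) (hw : ∀ ξ θ, w ξ θ = (σ.val (J ξ)).1 (c θ)) (ξ : Ξ) :
    (four k fun θ => a θ * w ξ θ + b θ * w ξ θ ^ 2) =
      four k a * trA h k σ (J ξ) + four k b * (trA h k σ (J ξ) * trA h k σ (J ξ)) := by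
  have h1 := pd_w h σ J hw ξ
  simp only [sq]
  rw [(ha.mul h1).four_add k (hb.mul (h1.mul h1)), ha.four_mul k h1, hb.four_mul k (h1.mul h1),
    h1.four_mul k h1, four_w h k σ J hw]

theorem quad_hasF (ha : Pd a) (hb : Pd b) (hw : ∀ ξ θ, w ξ θ = (σ.val (J ξ)).1 (c θ)) (ξ : Ξ) :
    HasFDerivAt (fun ξ => four k fun θ => a θ * w ξ θ + b θ * w ξ θ ^ 2)
      (lq h k σ J fun θ => a θ + 2 * b θ * w ξ θ) ξ := by
  have h1 := pd_w h σ J hw ξ
  have h2 : HasFDerivAt (fun ξ => trA h k σ (J ξ)) (trL h k σ ∘L J) ξ := (trL h k σ ∘L J).hasFDerivAt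
  simp only [quad_eq h k σ J ha hb hw]
  refine ((h2.const_mul (four k a)).add ((h2.mul h2).const_mul (four k b))).congr_fderiv ?_
  ext1 η
  rw [lq_apply, ha.four_add k (((Pd.const 2).mul hb).mul h1), ((Pd.const 2).mul hb).four_mul k h1,
    hb.four_smul k 2, four_w h k σ J hw, two_smul]
  change four k a * trA h k σ (J η) + four k b * (trA h k σ (J ξ) * trA h k σ (J η) +
    trA h k σ (J ξ) * trA h k σ (J η)) = _
  ring

include h in
theorem quad_diff (ha : Pd a) (hb : Pd b) (hw : ∀ ξ θ, w ξ θ = (σ.val (J ξ)).1 (c θ)) :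
    Differentiable ℂ fun ξ => four k fun θ => a θ * w ξ θ + b θ * w ξ θ ^ 2 :=
  fun ξ => (quad_hasF h k σ J ha hb hw ξ).differentiableAt

theorem w_zero (hw : ∀ ξ θ, w ξ θ = (σ.val (J ξ)).1 (c θ)) (θ : ℝ) : w 0 θ = 0 := by
  rw [hw, map_zero, map_zero]; rfl

theorem quad_zero (hw : ∀ ξ θ, w ξ θ = (σ.val (J ξ)).1 (c θ)) :
    (four k fun θ => a θ * w 0 θ + b θ * w 0 θ ^ 2) = 0 := by
  simp only [w_zero σ J hw, mul_zero, ne_eq, OfNat.ofNat_ne_zero, not_false_eq_true, zero_pow, add_zero]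
  exact (Pd.four_const k 0).trans (map_zero _)

include h in
theorem quad_fderiv_zero (ha : Pd a) (hb : Pd b) (hw : ∀ ξ θ, w ξ θ = (σ.val (J ξ)).1 (c θ)) (η : Ξ) :
    fderiv ℂ (fun ξ => four k fun θ => a θ * w ξ θ + b θ * w ξ θ ^ 2) 0 η =
      four k fun θ => a θ * w η θ := by
  rw [(quad_hasF h k σ J ha hb hw 0).fderiv, ← lq_eq h k σ J ha hw]
  simp only [w_zero σ J hw, mul_zero, add_zero]

include h in
theorem quad_syn (ha : Pd a) (hb : Pd b) (hw : ∀ ξ θ, w ξ θ = (σ.val (J ξ)).1 (c θ)) (ξ : Ξ) (θ : ℝ) :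
    Wi.syn (four k fun θ => a θ * w ξ θ + b θ * w ξ θ ^ 2) θ = a θ * w ξ θ + b θ * w ξ θ ^ 2 :=
  ((ha.mul (pd_w h σ J hw ξ)).add (hb.mul ((pd_w h σ J hw ξ).pow 2))).syn_four k θ

end Crest.Agent.N250.Ec

end
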