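import Crest.Agent.N250.R0.Leaf
import Crest.Agent.N250.R0.CjE
import Crest.Agent.N250.Se.Dic
import Crest.Agent.N250.Ec.Quad

/-!
# Row 250 (helper40): the boundary data `Fa.dat`
-/

set_option autoImplicit false
set_option linter.unusedSectionVars false
open Set Filter Topology Function
open scoped ContDiff InnerProductSpace ComplexConjugate
open Crest.GeometryTopology.MCF

noncomputable section

namespace Crest.Agent.N250.R0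

open WS Wr B1 Ec

variable {S : Mv}

namespace St

variable (T : St S) (j : Fin T.p)

/-- the coefficient `r_S / ν` on the circle `x = R` -/
def dtA (θ : ℝ) : ℂ := T.rS j (T.R, θ) / T.nu j (T.R, θ)

/-- the coefficient `1 / (2 ν²)` on the circle `x = R` -/
def dtB (θ : ℝ) : ℂ := 1 / (2 * T.nu j (T.R, θ) ^ 2)

theorem pd_dtA : Pd (T.dtA j) :=
  (T.pd_rS T.eR_lt_R).div (T.pd_nu T.eR_lt_R) fun θ => T.nu_ne (q := (T.R, θ)) T.eR_lt_R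

theorem pd_dtB : Pd (T.dtB j) :=
  (Pd.const 1).div ((Pd.const 2).mul ((T.pd_nu T.eR_lt_R).pow 2)) fun θ =>
    mul_ne_zero two_ne_zero (pow_ne_zero _ (T.nu_ne (q := (T.R, θ)) T.eR_lt_R))

theorem dt_sub (w : T.G.SmC) (q : ℝ × ℝ) : T.vW j w q - T.vS j q =
    T.rS j q / T.nu j q * w.1 (T.ψ j q) + 1 / (2 * T.nu j q ^ 2) * w.1 (T.ψ j q) ^ 2 := by
  simp only [vW, vS, rW]; ring

end St

namespace Fa

variable {T : St S} (F : Fa T) {σ : Scale T.G}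

variable (σ) in
/-- the projection onto `(f, η)` -/
def dtP : F.Ξ σ →L[ℂ] σ.AA × (F.I → ℂ) :=
  (ContinuousLinearMap.fst ℂ _ _).prod
    (ContinuousLinearMap.fst ℂ _ _ ∘L ContinuousLinearMap.snd ℂ _ _)

theorem dtP_apply (ξ : F.Ξ σ) : F.dtP σ ξ = (ξ.1, ξ.2.1) := rfl

theorem dat_eq (ξ : F.Ξ σ) (j : Fin T.p) : F.dat ξ j = four 2 fun θ =>
    T.dtA j θ * (F.w ξ).1 (T.ψ j (T.R, θ)) + T.dtB j θ * (F.w ξ).1 (T.ψ j (T.R, θ)) ^ 2 :=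
  congrArg (four 2) (funext fun θ => T.dt_sub j _ (T.R, θ))

theorem syn_b0_dat (ξ : F.Ξ σ) (j : Fin T.p) (θ : ℝ) :
    Wi.syn (T.b0 j + F.dat ξ j) θ = T.vW j (F.w ξ) (T.R, θ) - 1 := by
  rw [Wi.syn_add, T.syn_b0, F.syn_dat]; ring

theorem dt_w_J0 (J : σ.Jets F.φ) (ξ : F.Ξ σ) (j : Fin T.p) {q : ℝ × ℝ} (h1 : T.R - 5 < q.1)
    (h2 : q.1 ≤ T.R + 1) :
    (F.w ξ).1 (T.ψ j q) = (σ.val ((J.J0 ∘L F.dtP σ) ξ)).1 (T.ψ j q) := by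
  rw [ContinuousLinearMap.comp_apply, J.val0]
  change _ = ((T.G.ζ.1 _ * T.G.ι.1 _ : ℝ) : ℂ) * (F.w ξ).1 _
  rw [T.ι_ψ h1, T.ζ_ψ (by linarith [T.hR]) h2]
  simp

theorem dt_w_J0R (J : σ.Jets F.φ) (j : Fin T.p) (ξ : F.Ξ σ) (θ : ℝ) : (F.w ξ).1 (T.ψ j (T.R, θ)) =
    (σ.val ((J.J0 ∘L F.dtP σ) ξ)).1 (T.ψ j (T.R, θ)) :=
  F.dt_w_J0 J ξ j (by simp) (by simp)

theorem dat_fun (j : Fin T.p) : (fun ξ : F.Ξ σ => F.dat ξ j) = fun ξ => four 2 fun θ =>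
    T.dtA j θ * (F.w ξ).1 (T.ψ j (T.R, θ)) + T.dtB j θ * (F.w ξ).1 (T.ψ j (T.R, θ)) ^ 2 :=
  funext fun ξ => F.dat_eq ξ j

theorem dat_hasF (J : σ.Jets F.φ) (ξ : F.Ξ σ) : ∃ D : F.Ξ σ →L[ℂ] T.BB, HasFDerivAt F.dat D ξ ∧
    ∀ η j, D η j = four 2 fun θ => T.rW j (F.w ξ) (T.R, θ) / T.nu j (T.R, θ) *
      (F.w η).1 (T.ψ j (T.R, θ)) := by
  refine ⟨ContinuousLinearMap.pi fun j => lq (T.lo_ψ j T.eR_lt_R) 2 σ (J.J0 ∘L F.dtP σ)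
    fun θ => T.dtA j θ + 2 * T.dtB j θ * (F.w ξ).1 (T.ψ j (T.R, θ)), hasFDerivAt_pi.2 fun j => ?_,
    fun η j => ?_⟩
  · rw [F.dat_fun j]
    exact quad_hasF (T.lo_ψ j T.eR_lt_R) 2 σ _ (T.pd_dtA j) (T.pd_dtB j) (F.dt_w_J0R J j) ξ
  · refine (lq_eq (T.lo_ψ j T.eR_lt_R) 2 σ _ ((T.pd_dtA j).add (((Pd.const 2).mul (T.pd_dtB j)).mul
      ((T.lo_ψ j T.eR_lt_R).pd (F.w ξ).2))) (F.dt_w_J0R J j) η).trans
        (congrArg (four 2) (funext fun θ => ?_))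
    have := T.nu_ne (j := j) (q := (T.R, θ)) T.eR_lt_R
    simp only [St.dtA, St.dtB, St.rW, Function.comp_apply]
    field_simp

theorem dat_diff (J : σ.Jets F.φ) : Differentiable ℂ (F.dat (σ := σ)) := fun ξ =>
  (F.dat_hasF J ξ).choose_spec.1.differentiableAt

theorem dt_w_zero : F.w (0 : F.Ξ σ) = 0 := map_zero (σ.wL F.grn)

theorem dat_zero : F.dat (0 : F.Ξ σ) = 0 := funext fun j => by
  simp only [dat, dt_w_zero, St.vW_zero, sub_self]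
  exact (Pd.four_const 2 0).trans (map_zero _)

theorem fderiv_dat (J : σ.Jets F.φ) (ξ η : F.Ξ σ) (j : Fin T.p) : fderiv ℂ F.dat ξ η j =
    four 2 fun θ => T.rW j (F.w ξ) (T.R, θ) / T.nu j (T.R, θ) * (F.w η).1 (T.ψ j (T.R, θ)) := by
  obtain ⟨D, h1, h2⟩ := F.dat_hasF J ξ
  rw [h1.fderiv, h2]

theorem fderiv_dat_zero (J : σ.Jets F.φ) (η : F.Ξ σ) (j : Fin T.p) : fderiv ℂ F.dat 0 η j =
    four 2 fun θ => T.dtA j θ * (F.w η).1 (T.ψ j (T.R, θ)) := by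
  rw [F.fderiv_dat J]
  simp only [dt_w_zero, St.rW_zero, St.dtA]

theorem pd_ddat (η : F.Ξ σ) (j : Fin T.p) : Pd fun θ => T.dtA j θ * (F.w η).1 (T.ψ j (T.R, θ)) :=
  (T.pd_dtA j).mul ((T.lo_ψ j T.eR_lt_R).pd (F.w η).2)

theorem datD_of (J : σ.Jets F.φ) : F.DatD σ where
  syn := F.syn_dat
  hol := Eventually.of_forall (F.dat_diff J)
  zero := F.dat_zero
  fd η j θ := by rw [F.fderiv_dat_zero J]; exact (F.pd_ddat η j).syn_four 2 θ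
  cj := CjE.dat_cj F

/-- the modes of the linearised data -/
theorem DatD.co_fd (h : F.DatD σ) (η : F.Ξ σ) (j : Fin T.p) (m : ℤ) :
    Wi.co (fderiv ℂ F.dat 0 η j) m = Ra.fc (fun θ =>
      T.rS j (T.R, θ) / T.nu j (T.R, θ) * (F.w η).1 (T.ψ j (T.R, θ))) m := by
  rw [← fc_syn, funext (h.fd η j)]

end Fa

end Crest.Agent.N250.R0

end
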